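import Vale.Agent.P092.H437.O.Alg

/-!
P092 (helper437), Team P, row (I) over every local field, every nondegenerate trace valued form
(`Fo`): the step `Z = Q` of helper179's insertion argument (`KeyQ`) implies that **orthogonal
source points commute**. No hypothesis of total disconnectedness.
-/

set_option linter.all false

open Matrix Set Topology Module

namespace Vale.Agent.P092.H437.R

open Vale.Agent.P092.H714.Cl
open Vale.Agent.P092.H370.Po
open Vale.Agent.P092.H370.Fo (Fo)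
open Vale.Agent.P092.H100.Gr (Gr)
open Vale.Agent.P092.H232 (Nin join)
open Vale.Agent.P092.H218.NC (tsupport_star nin_swap exists_line eq_of_le₀)
open Vale.Agent.P092.H437.P2 (Tg Cal CalP emb emb_inc emb_P emb_inj emb_surj points_comm tgS)

variable {n : Type} [Fintype n] [DecidableEq n] {k : Type} [Field k]
  {σ : k →+* k} {ε : k} {J : Matrix n n k}
  {Y : ℕ → Type*} [∀ j, TopologicalSpace (Y j)] [∀ j, CompactSpace (Y j)] [∀ j, T2Space (Y j)]
  {K : Type*} [NormedAddCommGroup K] [InnerProductSpace ℂ K] [CompleteSpace K] {N : ℕ}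

/-- **Step (a) at `Z = Q`**: `M = P ∩ Q` a hyperplane of `P`, `l` a line of `P` not in `M`, `b` a
point of `M` not in `l`, no point of `Q` outside `P` is orthogonal to `l`. -/
def KeyQ (N : ℕ) (In : ∀ i j, Y i → Y j → Prop)
    (G : ∀ j, SGr σ J j → (C(Y j, ℂ) →⋆ₐ[ℂ] (K →L[ℂ] K))) : Prop :=
  ∀ (P Q : SGr σ J (N + 1)) (M : SGr σ J N) (l : SGr σ J 2) (b : SGr σ J 1), Inc M P → Inc M Q →
    Q ≠ P → Inc l P → ¬ Inc l M → Inc b M → ¬ Inc b l →
    (∀ c : SGr σ J 1, Inc c Q → ¬ Inc c P → ¬ Col c l) →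
    ∀ (s : C(Y (N + 1), ℂ)) (f : C(Y 2, ℂ)) (a : C(Y 1, ℂ)), Nin (In 1 (N + 1)) a s →
      G (N + 1) Q s * G 2 l f * G 1 b a = 0

variable {In : ∀ i j, Y i → Y j → Prop}
  {G : ∀ j, SGr σ J j → (C(Y j, ℂ) →⋆ₐ[ℂ] (K →L[ℂ] K))}

/-- step (b): `Key₁` inside the maximal subspace `P` -/
theorem key_b (hF : Fo σ ε J) (hN : 2 ≤ N) (hT : Tg Y In) (hG : CalP (N + 1) In G)
    (hK : KeyQ N In G) {P : SGr σ J (N + 1)} {M : SGr σ J N}
    {l : SGr σ J 2} {b : SGr σ J 1} (hMP : Inc M P) (hlP : Inc l P) (hlM : ¬ Inc l M)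
    (hbM : Inc b M) (hbl : ¬ Inc b l) (u) (g) (a) (h : Nin (In 1 N) a u) :
    G N M u * G 2 l g * G 1 b a = 0 := by
  obtain ⟨Q, hMQ, hQP, hQ⟩ := O.exists_Q hF hMP hlP hlM
  have hbP := hbM.trans hMP
  have hbQ := hbM.trans hMQ
  have key : ∀ (f : C(Y 2, ℂ)) (s : C(Y (N + 1), ℂ)) (a : C(Y 1, ℂ)),
      Nin (In 1 (N + 1)) a s → G (N + 1) Q s * G 2 l f * G 1 b a = 0 :=
    fun f s a hn => hK P Q M l b hMP hMQ hQP hlP hlM hbM hbl hQ s f a hn
  have main := join (I₁ := fun x z => In 1 (N + 1) x z) (I₂ := fun x z => In N (N + 1) x z)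
    (J := fun x y => In 1 N x y) (hT.closed 1 (N + 1)) (hT.closed N (N + 1))
    (fun x y hxy z z' h1 h2 h3 h4 => hT.join 1 N x y hxy z z' h1 h2 h3 h4)
    (G 1 b) (G N M) (G 2 l (star g)) (G (N + 1) P) (G (N + 1) Q)
    (fun u v => hG.com 1 (N + 1) (by omega) (by omega) le_rfl b P hbP u v)
    (fun a v => hG.com N (N + 1) (by omega) (by omega) le_rfl M P hMP a v)
    (fun v => hG.com 2 (N + 1) (by omega) (by omega) le_rfl l P hlP _ v)
    (fun a s => hG.com N (N + 1) (by omega) (by omega) le_rfl M Q hMQ a s)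
    (fun u v huv => hG.inc 1 (N + 1) (by omega) (by omega) le_rfl b P hbP u v huv)
    (fun a v hav => hG.inc N (N + 1) (by omega) (by omega) le_rfl M P hMP a v hav)
    (fun a s has => hG.inc N (N + 1) (by omega) (by omega) le_rfl M Q hMQ a s has)
    (hG.agrM P Q hQP.symm ⟨M, hMP, hMQ⟩) (D := univ) isOpen_univ
    (fun u' s _ hus => ?_) (star a) (star u) (subset_univ _) ?_
  · have h2 := congrArg star main
    simpa only [star_mul, map_star, star_star, star_zero, mul_assoc] using h2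
  · have h1 := key g (star s) (star u') (fun x hx y hy => by
      rw [tsupport_star] at hx hy
      exact hus x hx y hy)
    have h2 := congrArg star h1
    simpa only [star_mul, map_star, star_star, star_zero, mul_assoc] using h2
  · intro x hx y hy
    rw [tsupport_star] at hx hy
    exact h x hx y hy

theorem cal_emb (hG : CalP (N + 1) In G) (P : SGr σ J (N + 1)) (hN : 2 ≤ N) :
    Cal In (fun j X => G j (emb P X)) where
  com i j h1 h2 h3 X X' h f f' := hG.com i j h1 h2 (by omega) _ _ ((emb_inc P).2 h) f f'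
  inc i j h1 h2 h3 X X' h u f := hG.inc i j h1 h2 (by omega) _ _ ((emb_inc P).2 h) u f
  agr₁ a b hab := by
    obtain ⟨l, hal, hbl⟩ := exists_line a b hab
    exact hG.agr 1 le_rfl (by omega) _ _ (fun h => hab (emb_inj P h))
      ⟨emb P l, (emb_inc P).2 hal, (emb_inc P).2 hbl⟩
  agr j h1 h2 A B hAB hX := by
    obtain ⟨X, hXA, hXB⟩ := hX
    have h3 : ¬ A.1 ≤ B.1 := fun h => hAB (eq_of_le₀ h)
    have h4 := Submodule.finrank_sup_add_finrank_inf_eq A.1 B.1
    have h5 : finrank k X.1 ≤ finrank k ↥(A.1 ⊓ B.1) := Submodule.finrank_mono (le_inf hXA hXB)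
    have h6 := Vale.Agent.P092.H218.NC.finrank_sup_ge h3
    rw [A.2, B.2] at h4
    rw [B.2] at h6
    rw [X.2] at h5
    have h7 : finrank k ↥(A.1 ⊔ B.1) = j + 1 + 1 := by omega
    let C : Gr k (Fin (N + 1)) (j + 1 + 1) := ⟨A.1 ⊔ B.1, h7⟩
    exact hG.agr (j + 1) (by omega) (by omega) _ _ (fun h => hAB (emb_inj P h))
      ⟨emb P C, (emb_inc P).2 (le_sup_left : A.1 ≤ C.1),
        (emb_inc P).2 (le_sup_right : B.1 ≤ C.1)⟩

/-- **orthogonal points commute** -/
theorem pts_comm (hF : Fo σ ε J) (hN : 2 ≤ N) (Y₀ : SGr σ J (N + 1)) (hT : Tg Y In)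
    (hG : CalP (N + 1) In G) (hK : KeyQ N In G)
    (a b : SGr σ J 1) (hab : Col a b) (f g) : Commute (G 1 a f) (G 1 b g) := by
  obtain ⟨P, haP, hbP⟩ : ∃ P : SGr σ J (N + 1), Inc a P ∧ Inc b P := by
    have hs : Sing σ J (a.S ⊔ b.S) := by
      unfold Sing
      rw [ort_sup_left, ort_sup_right, ort_sup_right]
      exact ⟨⟨a.sing, hab⟩, O.ortS hF hab, b.sing⟩
    have hd : finrank k ↥(a.S ⊔ b.S) ≤ 2 := by
      have := Submodule.finrank_add_le_finrank_add_finrank a.S b.S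
      rw [a.dim, b.dim] at this
      exact this
    obtain ⟨P, hP⟩ := Vale.Agent.P092.H370.Fo.exists_inc_ge hF (l := N + 1) (by omega) le_rfl
      (SGr.mk' (a.S ⊔ b.S) hs rfl) Y₀
    exact ⟨P, le_sup_left.trans hP, le_sup_right.trans hP⟩
  obtain ⟨a', rfl⟩ := emb_surj P a haP
  obtain ⟨b', rfl⟩ := emb_surj P b hbP
  refine points_comm (Y := Y) (In := In) (G := fun j X => G j (emb P X)) hN hT
    (cal_emb hG P hN) ?_ a' b' f g
  intro C l b hbC hlC hbl u g a hn
  exact key_b hF hN hT hG hK (emb_P P C) (emb_P P l) (fun h => hlC ((emb_inc P).1 h))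
    ((emb_inc P).2 hbC) (fun h => hbl ((emb_inc P).1 h)) u g a hn

/-- the same for the singular Grassmannians over any local field -/
theorem pts_commS {k' : Type} [NontriviallyNormedField k'] [ProperSpace k'] {n' : Type}
    [Fintype n'] [DecidableEq n'] {σ' : k' →+* k'} {J' : Matrix n' n' k'} [Fact (Continuous σ')]
    (hF : Fo σ ε J) (hN : 2 ≤ N) (Y₀ : SGr σ J (N + 1))
    {G : ∀ j, SGr σ J j → (C(SGr σ' J' j, ℂ) →⋆ₐ[ℂ] (K →L[ℂ] K))}
    (hG : CalP (N + 1) (fun i j => Inc (i := i) (j := j)) G)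
    (hK : KeyQ N (fun i j => Inc (i := i) (j := j)) G)
    (a b : SGr σ J 1) (hab : Col a b) (f g) : Commute (G 1 a f) (G 1 b g) :=
  pts_comm hF hN Y₀ tgS hG hK a b hab f g

end Vale.Agent.P092.H437.R
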