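import Vale.Agent.P092.H437.O.Key0

/-!
P092 (helper437), Team P, row (I), every local field: **`KEY_0` from the leg and the count** in
which the calculus `p` of a common maximal subspace is at hand, in the letters of `CL/Defs`, for any
group `S` which acts on the singular subspaces.
-/

set_option linter.all false

open scoped InnerProductSpace ENNReal
open Filter Topology ContinuousLinearMap MeasureTheory TopologicalSpace

namespace Vale.Agent.P092.H437.R

open Vale.Agent.P092.RC (Cm TRN)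
open Vale.Agent.P092.H790.CT (PicL lam_norm)
open Vale.Agent.P092.CL (Lt Geo PB HFam)
open Set Module
open Vale.Agent.P092.H714.Cl
open Vale.Agent.P092.H370.Po
open Vale.Agent.P092.H232 (Nin)
open Vale.Agent.P092.H218.NC (tsupport_star)
open Vale.Agent.P092.H796 (PL)
open Vale.Agent.P092.CL (act)
open Vale.Agent.P092.H437.P2 (picL_of key0_step CalP Key0)
open Vale.Agent.P092.H437.O (GDat)

/-- open shell of a closed set, whose closure is unrelated to another closed set -/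
theorem shellR {X : Type*} [TopologicalSpace X] [CompactSpace X] [T2Space X] {R : X → X → Prop}
    (hR : IsClosed {p : X × X | R p.1 p.2}) {F G : Set X} (hF : IsClosed F) (hG : IsClosed G)
    (h : ∀ x ∈ F, ∀ y ∈ G, ¬ R x y) :
    ∃ B : Set X, IsOpen B ∧ G ⊆ B ∧ ∀ x ∈ F, ∀ y ∈ closure B, ¬ R x y := by
  obtain ⟨u, v, hu, hv, hFu, hGv, huv⟩ := generalized_tube_lemma hF.isCompact hG.isCompact
    hR.isOpen_compl (by rintro ⟨x, y⟩ ⟨hx, hy⟩; exact h x hx y hy)
  obtain ⟨B, hB, hGB, hBv⟩ := normal_exists_closure_subset hG hv hGv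
  exact ⟨B, hB, hGB, fun x hx y hy => huv (mk_mem_prod (hFu hx) (hBv hy))⟩

theorem pow_fix {S X : Type} [Group S] [MulAction S X] {g b : S} {x : X}
    (h : (g * b * g⁻¹) • x = x) (N : ℕ) : (g * b ^ N * g⁻¹) • x = x := by
  have e : g * b ^ N * g⁻¹ = (g * b * g⁻¹) ^ N := (conj_pow).symm
  rw [e]
  induction N with
  | zero => rw [pow_zero, one_smul]
  | succ N ih => rw [pow_succ, mul_smul, h, ih (conj_pow).symm]

section nu

variable {n : Type} [Fintype n] [DecidableEq n] {k : Type} [Field k] {σ : k →+* k}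
  {J : Matrix n n k} {r : ℕ}

/-- the join of two points of a singular space -/
theorem exists_nu {P : SGr σ J r} {b z : SGr σ J 1} (hb : Inc b P) (hz : Inc z P)
    (hne : b ≠ z) : ∃ ν : SGr σ J 2, Inc b ν ∧ Inc z ν := by
  have h1 := Submodule.finrank_sup_add_finrank_inf_eq b.S z.S
  rw [b.dim, z.dim] at h1
  have h2 : finrank k ↥(b.S ⊓ z.S) = 0 := by
    by_contra h0
    have h3 : finrank k ↥(b.S ⊓ z.S) ≤ 1 := (Submodule.finrank_mono inf_le_left).trans_eq b.dim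
    have h4 : b.S ⊓ z.S = b.S := Submodule.eq_of_le_of_finrank_eq inf_le_left (by
      rw [b.dim]; omega)
    exact hne (SGr.eq_of_le (inf_eq_left.1 h4))
  exact ⟨SGr.mk' (b.S ⊔ z.S) (P.sing.mono (sup_le hb hz)) (by omega), le_sup_left, le_sup_right⟩

end nu

section cnt

variable {n : Type} [Fintype n] [DecidableEq n] {k : Type} [NontriviallyNormedField k]
  [ProperSpace k] {σ : k →+* k} {ε : k} {J : Matrix n n k} {r : ℕ} {V₁ V₂ : Type}
  [MeasurableSpace V₁] [MeasurableSpace V₂] {S : Type} [Group S]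
  [∀ j, MulAction S (SGr σ J j)] [∀ j, ContinuousConstSMul S (SGr σ J j)]

/-- **The count of `KEY_0`** with the calculus `p` of a common maximal subspace. -/
def Cnt0P (L : Lt S (SGr σ J 1) (SGr σ J r) V₁ V₂) {Γ : Type} (q : Γ → S) (K : Type)
    [NormedAddCommGroup K] [InnerProductSpace ℂ K] [CompleteSpace K] : Prop :=
  ∃ D : Set C(SGr σ J 2, ℂ), closure (Submodule.span ℂ D : Set C(SGr σ J 2, ℂ)) = Set.univ ∧
  ∀ (b z : C(SGr σ J 1, ℂ) →⋆ₐ[ℂ] (K →L[ℂ] K)) (l ν : C(SGr σ J 2, ℂ) →⋆ₐ[ℂ] (K →L[ℂ] K))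
    (p : C(SGr σ J r, ℂ) →⋆ₐ[ℂ] (K →L[ℂ] K)),
    PL (fun x y => Inc x y) b ν → PL (fun x y => Inc x y) z ν → PL (fun x y => Inc x y) z l →
    PL (fun x y => Inc x y) b p → PL (fun x y => Inc x y) l p →
    ∀ (a : C(SGr σ J 1, ℂ)) (f : C(SGr σ J 2, ℂ)), f ∈ D →
    ∀ A : Set (SGr σ J 1), (∀ x ∈ tsupport a, ∀ y ∈ closure A, ¬ Col x y) →
    ∀ R : ℝ, ∃ T > 0, ∃ (C : ℝ) (d : ℕ), ∀ j : ℝ, 0 ≤ j → ∀ F : Finset Γ,
      (∀ γ ∈ F, γ ∈ L.na1 q R T A ∧ Real.log (L.nm (q γ)) ≤ j) → ∀ ξ : K,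
      ∑ γ ∈ F, ‖b (act (q γ)⁻¹ a) (l (act (q γ)⁻¹ f) ξ)‖ ^ 2 ≤ C * (1 + j) ^ d * ‖ξ‖ ^ 2

/-- the configuration of `KEY_0` is fixed by a conjugate of `b1` and `u1` -/
def Fix0 (L : Lt S (SGr σ J 1) (SGr σ J r) V₁ V₂) : Prop :=
  ∀ (P : SGr σ J r) (c : SGr σ J 1) (l : SGr σ J 2) (b : SGr σ J 1), ¬ Inc c P → Inc l P →
    Inc b P → Col c b → ¬ Col c l → ¬ Inc b l → ∃ g : S, g • L.p0 = c ∧
      (g * L.b1 * g⁻¹) • b = b ∧ (g * L.b1 * g⁻¹) • l = l ∧
      ∀ s, (g * L.u1 s * g⁻¹) • b = b ∧ (g * L.u1 s * g⁻¹) • l = l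

variable [Fact (Continuous σ)] [TopologicalSpace S] [NormedAddCommGroup V₁]
  [NormedAddCommGroup V₂] [ProperSpace V₁] [BorelSpace V₁]
  {L : Lt S (SGr σ J 1) (SGr σ J r) V₁ V₂} [IsFiniteMeasureOnCompacts L.μ₁]
  [L.μ₁.IsOpenPosMeasure]
  {E Γ K : Type} [Group E] [TopologicalSpace E] [Group Γ] [NormedAddCommGroup K]
  [InnerProductSpace ℂ K] [CompleteSpace K] {𝒰 : Ultrafilter ℕ} {ι : S →* E}
  {π : E →* (K →L[ℂ] K)} {lam : Γ →* (K →L[ℂ] K)} {W : Set (K →L[ℂ] K)} {Ω : K}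
  {m : Set Γ → (K →L[ℂ] K)} {q : Γ → S}
  {G : ∀ j, SGr σ J j → (C(SGr σ J j, ℂ) →⋆ₐ[ℂ] (K →L[ℂ] K))}

/-- **`KEY_0` from the leg and the count**, every local field -/
theorem key0_of_cntP (hr : 2 ≤ r) (geo : Geo L)
    (base : PB L 𝒰 ι π lam W Ω m q) (gd : GDat ι π lam W q r G)
    (hG : CalP r (fun i j => Inc (σ := σ) (J := J) (i := i) (j := j)) G)
    (hdom : ∀ (g : S) (u : C(SGr σ J 1, ℂ)) (A : Set (SGr σ J 1)), IsOpen A →
      tsupport u ⊆ A → ∀ ζ : K, ∀ ε > 0, ∃ R : ℝ, ∀ T > 0, ∀ᶠ t : ℕ in (𝒰 : Filter ℕ),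
      ‖G 1 (g • L.p0) u ζ‖ ≤ ‖u‖ * ‖m (L.na1 q R T A) (π (ι (g * L.b1 ^ t * g⁻¹))⁻¹ ζ)‖ + ε)
    (fix : Fix0 L) (cnt : Cnt0P L q K) :
    Key0 r (fun j => Col (σ := σ) (J := J) (i := 1) (j := j)) G := by
  intro P c l b hcP hlP hbP hcb hcl hbl u f a hn
  obtain ⟨z, hzl⟩ := exists_inc_le (i := 1) one_le_two l
  obtain ⟨ν, hbν, hzν⟩ := exists_nu hbP (hzl.trans hlP) fun h => hbl (h ▸ hzl)
  have pbν : PL (fun x y => Inc x y) (G 1 b) (G 2 ν) :=
    ⟨fun f g => hG.com 1 2 le_rfl one_le_two hr b ν hbν f g,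
      fun f g h => hG.inc 1 2 le_rfl one_le_two hr b ν hbν f g h⟩
  have pzν : PL (fun x y => Inc x y) (G 1 z) (G 2 ν) :=
    ⟨fun f g => hG.com 1 2 le_rfl one_le_two hr z ν hzν f g,
      fun f g h => hG.inc 1 2 le_rfl one_le_two hr z ν hzν f g h⟩
  have pzl : PL (fun x y => Inc x y) (G 1 z) (G 2 l) :=
    ⟨fun f g => hG.com 1 2 le_rfl one_le_two hr z l hzl f g,
      fun f g h => hG.inc 1 2 le_rfl one_le_two hr z l hzl f g h⟩
  have pbP : PL (fun x y => Inc x y) (G 1 b) (G r P) :=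
    ⟨fun f g => hG.com 1 r le_rfl (by omega) le_rfl b P hbP f g,
      fun f g h => hG.inc 1 r le_rfl (by omega) le_rfl b P hbP f g h⟩
  have plP : PL (fun x y => Inc x y) (G 2 l) (G r P) :=
    ⟨fun f g => hG.com 2 r (by omega) hr le_rfl l P hlP f g,
      fun f g h => hG.inc 2 r (by omega) hr le_rfl l P hlP f g h⟩
  obtain ⟨g, hg, hb1, hl1, hu1⟩ := fix P c l b hcP hlP hbP hcb hcl hbl
  obtain ⟨A, hA, huA, hUA⟩ := shellR (R := fun x y => Col x y)
    (col_closed (σ := σ) (J := J) Fact.out) (isClosed_tsupport ⇑a) (isClosed_tsupport ⇑u) hn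
  obtain ⟨D, hD, hcnt⟩ := cnt
  -- functions of `D`
  have main : ∀ f' ∈ D, G 1 c u * (G 2 l (star f') * G 1 b a) = 0 := by
    intro f' hf'
    subst hg
    refine key0_step geo base g (A := A) (c := ‖u‖) (hdom g u A hA huA) ?_ ?_ ?_ ?_
    · intro w hw
      rw [mul_assoc, gd.cm 1 le_rfl (by omega) b a w hw, ← mul_assoc,
        gd.cm 2 (by omega) hr l _ w hw, mul_assoc]
    · intro N
      exact (gd.com_pi (by omega) hr (pow_fix hl1 N) _).mul_left
        (gd.com_pi le_rfl (by omega) (pow_fix hb1 N) a)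
    · intro s
      exact (gd.com_pi (by omega) hr (hu1 s).2 _).mul_left
        (gd.com_pi le_rfl (by omega) (hu1 s).1 a)
    · intro R
      obtain ⟨T, hT, C, d, h1⟩ := hcnt (G 1 b) (G 1 z) (G 2 l) (G 2 ν) (G r P) pbν pzν pzl pbP plP
        (star a) f' hf' A (fun x hx y hy => hUA x (by rwa [tsupport_star] at hx) y hy) R
      refine ⟨T, hT, C * ‖Ω‖ ^ 2, d, fun j hj F hF' => ?_⟩
      refine le_trans (le_of_eq ?_) ((h1 j hj F hF' Ω).trans (le_of_eq (by ring)))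
      refine Finset.sum_congr rfl fun γ _ => ?_
      congr 1
      have e1 : adjoint (G 2 l (star f') * G 1 b a) = G 1 b (star a) * G 2 l f' := by
        change star (G 2 l (star f') * G 1 b a) = _
        rw [star_mul, map_star, map_star, star_star]
      rw [e1]
      change ‖G 1 b (star a) (G 2 l f' (lam γ Ω))‖ = _
      rw [gd.lam_app (by omega) hr, gd.lam_app le_rfl (by omega), lam_norm (picL_of base.pic)]
  -- all functions
  have hcont : Continuous (G 2 l) :=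
    AddMonoidHomClass.continuous_of_bound (G 2 l) 1 fun f => by
      rw [one_mul]; exact NonUnitalStarAlgHom.norm_apply_le (G 2 l) f
  have hcl' : IsClosed {f' : C(SGr σ J 2, ℂ) | G 1 c u * (G 2 l (star f') * G 1 b a) = 0} :=
    isClosed_eq (continuous_const.mul ((hcont.comp continuous_star).mul continuous_const))
      continuous_const
  have hsp : ∀ f' ∈ Submodule.span ℂ D, G 1 c u * (G 2 l (star f') * G 1 b a) = 0 := by
    intro f' hf'
    induction hf' using Submodule.span_induction with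
    | mem x hx => exact main x hx
    | zero => rw [star_zero, map_zero, zero_mul, mul_zero]
    | add x y _ _ hx hy => rw [star_add, map_add, add_mul, mul_add, hx, hy, add_zero]
    | smul κ x _ hx => rw [star_smul, map_smul, smul_mul_assoc, mul_smul_comm, hx, smul_zero]
  have hall : ∀ f' : C(SGr σ J 2, ℂ), G 1 c u * (G 2 l (star f') * G 1 b a) = 0 := by
    intro f'
    have h1 : f' ∈ closure (Submodule.span ℂ D : Set C(SGr σ J 2, ℂ)) := by
      rw [hD]; trivial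
    exact hcl'.closure_subset_iff.2 (fun x hx => hsp x hx) h1
  have h2 := hall (star f)
  rw [star_star] at h2
  rw [mul_assoc]
  exact h2

end cnt

end Vale.Agent.P092.H437.R
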